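import Vale.Agent.P275GE.Poly

/-!
# P275, block DL: generic equisingularity
-/

open scoped Polynomial Topology
open Polynomial Set Filter Bornology

noncomputable section

namespace Vale.Agent.P275GE

open Vale.Agent.P275DL
open Vale.Agent.P275ST (Pol)

/-- polynomial functions on a subset extend -/
theorem lift_pol {V : Type} [AddCommGroup V] [Module ℂ V] {Y : Set V} (g : Pol Y) :
    ∃ G : Pol (univ : Set V), ∀ a : Y, G.1 ⟨a, trivial⟩ = g.1 a := by
  obtain ⟨g, hg⟩ := g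
  induction hg using Algebra.adjoin_induction with
  | mem x hx =>
    obtain ⟨φ, rfl⟩ := hx
    exact ⟨lin univ φ, fun _ => rfl⟩
  | algebraMap c => exact ⟨algebraMap ℂ _ c, fun _ => rfl⟩
  | add x y _ _ hx hy =>
    obtain ⟨F, hF⟩ := hx
    obtain ⟨G, hG⟩ := hy
    exact ⟨F + G, fun a => congrArg₂ (· + ·) (hF a) (hG a)⟩
  | mul x y _ _ hx hy =>
    obtain ⟨F, hF⟩ := hx
    obtain ⟨G, hG⟩ := hy
    exact ⟨F * G, fun a => congrArg₂ (· * ·) (hF a) (hG a)⟩

/-- polynomial functions are analytic -/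
theorem an_pol {V : Type} [NormedAddCommGroup V] [NormedSpace ℂ V] [FiniteDimensional ℂ V]
    (G : Pol (univ : Set V)) (v : V) : AnalyticAt ℂ (fun w : V => G.1 ⟨w, trivial⟩) v := by
  obtain ⟨g, hg⟩ := G
  induction hg using Algebra.adjoin_induction with
  | mem x hx =>
    obtain ⟨φ, rfl⟩ := hx
    exact (LinearMap.toContinuousLinearMap φ).analyticAt v
  | algebraMap c => exact analyticAt_const
  | add x y _ _ hx hy => exact hx.add hy
  | mul x y _ _ hx hy => exact hx.mul hy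

theorem nm_monic {S V : Type} {X : Cov S} [AddCommGroup V] [Module ℂ V] {n : ℕ} (D : SD X V n)
    (v : V) (t : ℂ) : (D.Nm v t).Monic :=
  monic_prod_of_monic _ _ fun x _ => monic_X_pow_add (by
    simpa only [Finset.sum_range] using degree_sum_fin_lt fun k : Fin n => D.c k v x)

theorem gens : GENS := by
  intro S V X _ _ _ n D Y hY
  haveI : CharZero (Pol Y) := algebraRat.charZero _
  obtain ⟨M, Q, hQ⟩ := poly S V X n D Y
  have w0 : ∀ t ∉ X.Z, (∏ s ∈ X.Z, (t - s)) ^ M ≠ 0 := fun t ht =>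
    pow_ne_zero _ (Finset.prod_ne_zero_iff.2 fun s hs => sub_ne_zero.2 fun h => ht (h ▸ hs))
  have ne : ∀ g : Pol Y, g ≠ 0 → ∃ a : Y, g.1 a ≠ 0 := fun g hg =>
    Function.ne_iff.1 fun h => hg (Subtype.ext h)
  have Q0 : Q ≠ 0 := by
    rintro rfl
    obtain ⟨a, -⟩ := ne 1 one_ne_zero
    obtain ⟨t, ht⟩ := X.Z.finite_toSet.infinite_compl.nonempty
    have := hQ a t ht
    rw [Polynomial.map_zero] at this
    exact mul_ne_zero (C_ne_zero.2 (w0 t ht)) (nm_monic D a t).ne_zero this.symm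
  obtain ⟨g, g0, N, hg⟩ := gen (Pol Y)[X] Q Q0
  have g1 : g * ∏ s ∈ X.Z, (Polynomial.X - C (algebraMap ℂ (Pol Y) s)) ≠ 0 :=
    mul_ne_zero g0 (monic_prod_of_monic _ _ fun s _ => monic_X_sub_C _).ne_zero
  obtain ⟨G0, G00, N1, hG0⟩ := gen (Pol Y) _ g1
  generalize hp : g * ∏ s ∈ X.Z, (Polynomial.X - C (algebraMap ℂ (Pol Y) s)) = p at hG0
  have ep : ∀ (a : Y) (t : ℂ), (p.map (evP a)).eval t =
      eval₂RingHom (evP a) t g * ∏ s ∈ X.Z, (t - s) := fun a t => by
    rw [← hp, eval_map, ← coe_eval₂RingHom, map_mul, map_prod]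
    simp only [coe_eval₂RingHom, eval₂_sub, eval₂_X, eval₂_C]
    rfl
  obtain ⟨G, hG⟩ := lift_pol G0
  choose c hc using fun k => lift_pol (p.coeff k)
  obtain ⟨a₀, ha₀⟩ := ne G0 G00
  refine ⟨G, ⟨a₀, a₀.2, (hG a₀).trans_ne ha₀⟩, fun d φ hφ hev h0 => ?_⟩
  let q : V → ℂ[X] := fun v => C ((c p.natDegree).1 ⟨v, trivial⟩)⁻¹ *
    ∑ k ∈ Finset.range (p.natDegree + 1), C ((c k).1 ⟨v, trivial⟩) * Polynomial.X ^ k
  have key : ∀ a : Y, G.1 ⟨a, trivial⟩ ≠ 0 → (c p.natDegree).1 ⟨a, trivial⟩ ≠ 0 ∧ (q a).Monic ∧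
      (q a).natDegree = p.natDegree ∧ nr (q a) = N1 ∧ (∀ t ∈ X.Z, (q a).eval t = 0) ∧
      ∀ t, (q a).eval t ≠ 0 → nr (D.Nm a t) = N := fun a ha => by
    obtain ⟨k1, k2, k3⟩ := hG0 (evP a) ((hG a).symm.trans_ne ha)
    have e1 : (c p.natDegree).1 ⟨a, trivial⟩ = (p.map (evP a)).leadingCoeff := by
      rw [leadingCoeff, k1, coeff_map, hc]
      rfl
    have e2 : q a = C ((p.map (evP a)).leadingCoeff)⁻¹ * p.map (evP a) := by
      have e3 : p.map (evP a) = ∑ k ∈ Finset.range (p.natDegree + 1),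
          C ((c k).1 ⟨a, trivial⟩) * Polynomial.X ^ k := by
        conv_lhs => rw [p.as_sum_range_C_mul_X_pow]
        simp only [Polynomial.map_sum, Polynomial.map_mul, map_C, Polynomial.map_pow, map_X, hc]
        rfl
      rw [← e1, e3]
    have l0 := leadingCoeff_ne_zero.2 k2
    rw [e1, e2]
    refine ⟨l0, by rw [mul_comm]; exact monic_mul_leadingCoeff_inv k2,
      (natDegree_C_mul (inv_ne_zero l0)).trans k1, (nr_C_mul (inv_ne_zero l0) _).trans k3,
      fun t ht => ?_, fun t ht => ?_⟩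
    · rw [eval_mul, ep, Finset.prod_eq_zero ht (sub_self t), mul_zero, mul_zero]
    · rw [eval_mul, ep] at ht
      have h2 := right_ne_zero_of_mul ht
      have h3 : t ∉ X.Z := fun h => right_ne_zero_of_mul h2 (Finset.prod_eq_zero h (sub_self t))
      rw [← (hg _ (left_ne_zero_of_mul h2)).2.2, hQ a t h3, nr_C_mul (w0 t h3)]
  have k0 := key ⟨φ 0, hev.self_of_nhds⟩ h0
  have an := fun F : Pol (univ : Set V) => (an_pol F (φ 0)).comp hφ
  refine ⟨fun T => q (φ T), p.natDegree, N, fun k => ?_, ?_⟩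
  · simp only [q, coeff_C_mul, finset_sum_coeff]
    exact ((an _).inv k0.1).mul (Finset.analyticAt_fun_sum _ fun j _ => (an _).mul analyticAt_const)
  · filter_upwards [hev, (an G).continuousAt.eventually_ne h0] with T h1 h2
    have k1 := key ⟨φ T, h1⟩ h2
    exact ⟨k1.2.1, k1.2.2.1, k1.2.2.2.1.trans k0.2.2.2.1.symm, k1.2.2.2.2⟩

end Vale.Agent.P275GE
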