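import Vale.Agent.P275DL.Defs

/-!
# P275, block DL: generic degree and generic number of roots
-/

open scoped Polynomial
open Polynomial

noncomputable section

namespace Vale.Agent.P275GE

open Vale.Agent.P275DL

theorem nr_sep {p : ℂ[X]} (h : p.Separable) : nr p = p.natDegree := by
  rw [nr, Multiset.toFinset_card_of_nodup (nodup_roots h), IsAlgClosed.card_roots_eq_natDegree]

theorem nr_congr {p q : ℂ[X]} (hp : p ≠ 0) (hq : q ≠ 0) (h : ∀ z, p.eval z = 0 ↔ q.eval z = 0) :
    nr p = nr q := by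
  have : p.roots.toFinset = q.roots.toFinset := by
    ext z
    simp only [Multiset.mem_toFinset, mem_roots hp, mem_roots hq, IsRoot.def, h]
  rw [nr, nr, this]

theorem nr_C_mul {c : ℂ} (hc : c ≠ 0) (p : ℂ[X]) : nr (C c * p) = nr p := by
  rw [nr, nr, roots_C_mul _ hc]

theorem clear {R : Type} [CommRing R] [IsDomain R] (p : (FractionRing R)[X]) :
    ∃ b : R, b ≠ 0 ∧ ∃ q : R[X], q.map (algebraMap R (FractionRing R)) =
      (C b).map (algebraMap R (FractionRing R)) * p := by
  obtain ⟨b, hb, h⟩ := IsLocalization.integerNormalization_spec (nonZeroDivisors R) p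
  refine ⟨b, nonZeroDivisors.ne_zero hb, _, h.trans ?_⟩
  rw [map_C, C_mul', algebraMap_smul]

theorem gen : GEN := by
  intro R _ _ _ Q hQ
  have inj := map_injective _ (IsFractionRing.injective R (FractionRing R))
  set ι := algebraMap R (FractionRing R)
  have hQ' : Q.map ι ≠ 0 := fun h => hQ (inj (h.trans (Polynomial.map_zero ι).symm))
  obtain ⟨S, k, hS, ⟨U, hU⟩, ⟨V, hV⟩⟩ := exists_squarefree_dvd_pow_of_ne_zero hQ'
  obtain ⟨A, B, hAB⟩ := PerfectField.separable_iff_squarefree.2 hS
  obtain ⟨s, hs, S0, eS⟩ := clear S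
  obtain ⟨u, hu, U0, eU⟩ := clear U
  obtain ⟨v, hv, V0, eV⟩ := clear V
  obtain ⟨a, ha, A0, eA⟩ := clear A
  obtain ⟨b, hb, B0, eB⟩ := clear B
  have e1 : C (s * u) * Q = S0 * U0 := inj (by
    rw [C_mul, Polynomial.map_mul, Polynomial.map_mul, Polynomial.map_mul, eS, eU, hU]
    ring)
  have e2 : C v * S0 ^ k = C (s ^ k) * Q * V0 := inj (by
    rw [C_pow, Polynomial.map_mul, Polynomial.map_mul, Polynomial.map_mul, Polynomial.map_pow,
      Polynomial.map_pow, eS, eV, mul_pow, hV]
    ring)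
  have eD : (derivative S0).map ι = (C s).map ι * derivative S := by
    rw [← derivative_map, eS, map_C, derivative_C_mul]
  have e3 : C b * A0 * S0 + C a * B0 * derivative S0 = C (a * b * s) := inj (by
    simp only [C_mul, Polynomial.map_mul, Polynomial.map_add]
    rw [eA, eB, eD, eS]
    linear_combination (C a).map ι * (C b).map ι * (C s).map ι * hAB)
  have hS0 : S0 ≠ 0 := by
    rintro rfl
    rw [zero_mul] at e1
    exact mul_ne_zero (C_ne_zero.2 (mul_ne_zero hs hu)) hQ e1
  refine ⟨Q.leadingCoeff * S0.leadingCoeff * (s * u) * v * (a * b * s), ?_, S0.natDegree,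
    fun φ hφ => ?_⟩
  · have := leadingCoeff_ne_zero.2 hQ
    have := leadingCoeff_ne_zero.2 hS0
    simp [*]
  · rw [map_mul, map_mul, map_mul, map_mul] at hφ
    simp only [mul_ne_zero_iff (a := _ * _), mul_ne_zero_iff (a := φ Q.leadingCoeff)] at hφ
    obtain ⟨⟨⟨⟨h1, h2⟩, h3⟩, h4⟩, h5⟩ := hφ
    have n1 : Q.map φ ≠ 0 := fun h => h1 (by rw [leadingCoeff, ← coeff_map, h, coeff_zero])
    have n2 : S0.map φ ≠ 0 := fun h => h2 (by rw [leadingCoeff, ← coeff_map, h, coeff_zero])
    refine ⟨natDegree_map_of_leadingCoeff_ne_zero φ h1, n1, ?_⟩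
    have sep : (S0.map φ).Separable := by
      refine ⟨C (φ (a * b * s))⁻¹ * (C b * A0).map φ, C (φ (a * b * s))⁻¹ * (C a * B0).map φ, ?_⟩
      rw [derivative_map, mul_assoc (C _), mul_assoc (C _), ← mul_add, ← Polynomial.map_mul,
        ← Polynomial.map_mul, ← Polynomial.map_add, e3, map_C, ← C_mul, inv_mul_cancel₀ h5, C_1]
    rw [← natDegree_map_of_leadingCoeff_ne_zero φ h2, ← nr_sep sep]
    refine nr_congr n1 n2 fun z => ⟨fun h => ?_, fun h => ?_⟩
    · have := congrArg (fun p => (p.map φ).eval z) e2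
      simp only [Polynomial.map_mul, Polynomial.map_pow, map_C, eval_mul, eval_pow, eval_C, h,
        mul_zero, zero_mul] at this
      exact eq_zero_of_pow_eq_zero ((mul_eq_zero.1 this).resolve_left h4)
    · have := congrArg (fun p => (p.map φ).eval z) e1
      simp only [Polynomial.map_mul, map_C, eval_mul, eval_C, h, zero_mul] at this
      exact (mul_eq_zero.1 this).resolve_left h3

end Vale.Agent.P275GE
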