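import Vale.Agent.P275GE.Gen

/-!
# P275, block DL: the norm of the characteristic polynomial is polynomial in the parameters
-/

open scoped Polynomial Topology
open Polynomial Set Filter Bornology

noncomputable section

namespace Vale.Agent.P275GE

open Vale.Agent.P275DL
open Vale.Agent.P275ST (Pol)

theorem ev_ge (R : ℝ) : ∀ᶠ z in cobounded ℂ, R ≤ ‖z‖ :=
  (tendsto_norm_cobounded_atTop (E := ℂ)).eventually_ge_atTop R

/-- an entire function of polynomial growth is a polynomial -/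
theorem ent (m : ℕ) : ∀ (g : ℂ → ℂ) (B : ℝ), Differentiable ℂ g →
    (∀ᶠ z in cobounded ℂ, ‖g z‖ ≤ B * ‖z‖ ^ m) →
    ∃ Q : ℂ[X], Q.natDegree ≤ m ∧ ∀ z, g z = Q.eval z := by
  induction m with
  | zero =>
    intro g B hg h
    obtain ⟨R, -, hR⟩ := (Metric.hasBasis_cobounded_compl_closedBall (0 : ℂ)).eventually_iff.1 h
    obtain ⟨D, hD⟩ := (isCompact_closedBall (0 : ℂ) R).exists_bound_of_continuousOn
      hg.continuous.continuousOn
    obtain ⟨c, hc⟩ := hg.exists_const_forall_eq_of_bounded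
      (isBounded_iff_forall_norm_le.2 ⟨max B D, by
        rintro _ ⟨z, rfl⟩
        by_cases hz : z ∈ Metric.closedBall (0 : ℂ) R
        · exact le_max_of_le_right (hD z hz)
        · exact le_max_of_le_left (by simpa using hR hz)⟩)
    exact ⟨C c, by simp, fun z => by simp [hc z]⟩
  | succ m ih =>
    intro g B hg h
    have hd : Differentiable ℂ (dslope g 0) :=
      differentiableOn_univ.1 ((Complex.differentiableOn_dslope univ_mem).2 hg.differentiableOn)
    have e : ∀ z, z * dslope g 0 z = g z - g 0 := fun z => by simpa using sub_smul_dslope g 0 z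
    obtain ⟨Q, hQ, hQ'⟩ := ih (dslope g 0) (B + ‖g 0‖) hd (by
      filter_upwards [h, ev_ge 1] with z hz h1
      have h2 : (1 : ℝ) ≤ ‖z‖ ^ (m + 1) := one_le_pow₀ h1
      refine le_of_mul_le_mul_left ?_ (one_pos.trans_le h1)
      rw [← norm_mul, e]
      refine (norm_sub_le _ _).trans ?_
      have := mul_le_mul_of_nonneg_left h2 (norm_nonneg (g 0))
      rw [pow_succ] at hz this
      nlinarith)
    refine ⟨C (g 0) + X * Q, ?_, fun z => ?_⟩
    · refine (natDegree_add_le _ _).trans (max_le (by simp) (natDegree_mul_le.trans ?_))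
      rw [natDegree_X]
      omega
    · simp only [eval_add, eval_C, eval_mul, eval_X, ← hQ' z, e]
      ring

variable {S : Type} (X : Cov S)

theorem an_prod {h : S → ℂ} (hh : X.Hl h) {t : ℂ} (ht : t ∉ X.Z) :
    AnalyticAt ℂ (fun t => ∏ p ∈ X.fib t, h p) t := by
  have h1 : AnalyticAt ℂ (fun s => ∏ p ∈ X.fib t, h (X.σ p s)) t :=
    Finset.analyticAt_fun_prod _ fun p hp => (X.mem p t).1 hp ▸ hh p
  refine h1.congr ?_
  filter_upwards [X.bij t ht] with s hs
  exact Finset.prod_nbij _ hs.mapsTo hs.injOn hs.surjOn fun _ _ => rfl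

theorem prod_le {h : S → ℂ} {F : Finset S} {e n : ℕ} (hF : F.card ≤ e) {B r : ℝ} (h0 : 0 ≤ r)
    (h1 : r ≤ 1) (hB : ∀ p ∈ F, ‖h p‖ * r ^ n ≤ B) :
    r ^ (n * e) * ‖∏ p ∈ F, h p‖ ≤ max B 1 ^ e := by
  have k1 : r ^ (n * e) ≤ (r ^ n) ^ F.card := by
    rw [← pow_mul]
    exact pow_le_pow_of_le_one h0 h1 (Nat.mul_le_mul_left n hF)
  refine (mul_le_mul_of_nonneg_right k1 (norm_nonneg _)).trans ?_
  rw [norm_prod, ← Finset.prod_const, mul_comm, ← Finset.prod_mul_distrib]
  refine (Finset.prod_le_prod (fun p _ => by positivity) fun p hp =>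
    (hB p hp).trans (le_max_left B 1)).trans ?_
  rw [Finset.prod_const]
  exact pow_le_pow_right₀ (le_max_right _ _) hF

/-- the norm of a holomorphic function with poles of bounded order -/
theorem norm_poly {h : S → ℂ} (hh : X.Hl h) {e n : ℕ} (he : ∀ t, (X.fib t).card ≤ e) {B : ℝ}
    (h1 : ∀ t₀ ∈ X.Z, ∀ᶠ t in 𝓝[≠] t₀, ∀ p ∈ X.fib t, ‖h p‖ * ‖t - t₀‖ ^ n ≤ B)
    (h2 : ∀ᶠ t in cobounded ℂ, ∀ p ∈ X.fib t, ‖h p‖ ≤ B) :
    ∃ Q : ℂ[X], Q.natDegree ≤ X.Z.card * (n * e + 1) ∧
      ∀ t, (∏ s ∈ X.Z, (t - s)) ^ (n * e + 1) * ∏ p ∈ X.fib t, h p = Q.eval t := by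
  have aw : ∀ (F : Finset ℂ) (t : ℂ), AnalyticAt ℂ (fun t => ∏ s ∈ F, (t - s)) t := fun F t =>
    Finset.analyticAt_fun_prod _ fun s _ => analyticAt_id.sub analyticAt_const
  have a1 : ∀ t ∉ X.Z, AnalyticAt ℂ
      (fun t => (∏ s ∈ X.Z, (t - s)) ^ (n * e + 1) * ∏ p ∈ X.fib t, h p) t := fun t ht =>
    ((aw _ t).pow _).mul (an_prod X hh ht)
  refine ent _ _ (2 ^ (X.Z.card * (n * e + 1)) * max B 1 ^ e) (fun t => ?_) ?_
  · by_cases ht : t ∈ X.Z
    · refine (Complex.analyticAt_of_differentiable_on_punctured_nhds_of_continuousAt ?_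
        ?_).differentiableAt
      · have : ∀ᶠ s in 𝓝[≠] t, s ∉ (X.Z : Set ℂ) := by
          have := (X.Z.finite_toSet.subset (diff_subset (t := {t}))).isClosed.isOpen_compl.mem_nhds
            (show t ∉ (X.Z : Set ℂ) \ {t} from fun h => h.2 rfl)
          filter_upwards [nhdsWithin_le_nhds this, self_mem_nhdsWithin] with s hs hs' h
          exact hs ⟨h, hs'⟩
        exact this.mono fun s hs => (a1 s hs).differentiableAt
      · rw [← continuousWithinAt_compl_self, ContinuousWithinAt,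
          Finset.prod_eq_zero ht (sub_self t), zero_pow (Nat.succ_ne_zero _), zero_mul]
        have c1 : ContinuousAt (fun s => ‖s - t‖ * (‖∏ u ∈ X.Z.erase t, (s - u)‖ ^ (n * e + 1) *
            max B 1 ^ e)) t := (continuousAt_id.sub continuousAt_const).norm.mul
          (((aw _ t).continuousAt.norm.pow _).mul continuousAt_const)
        have c2 := c1.tendsto.mono_left (nhdsWithin_le_nhds (s := {t}ᶜ))
        rw [sub_self, norm_zero, zero_mul] at c2
        refine squeeze_zero_norm' ?_ c2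
        filter_upwards [h1 t ht, nhdsWithin_le_nhds (Metric.closedBall_mem_nhds t one_pos)]
          with s hs hs'
        have := prod_le (he s) (norm_nonneg _) (mem_closedBall_iff_norm.1 hs') hs
        rw [← Finset.mul_prod_erase _ _ ht, mul_pow, norm_mul, norm_mul, norm_pow, norm_pow,
          pow_succ ‖s - t‖]
        have k := mul_le_mul_of_nonneg_left this
          (show 0 ≤ ‖s - t‖ * ‖∏ u ∈ X.Z.erase t, (s - u)‖ ^ (n * e + 1) by positivity)
        linarith
    · exact (a1 t ht).differentiableAt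
  · filter_upwards [h2, (Finset.eventually_all X.Z).2 fun s _ => ev_ge ‖s‖] with t ht hs
    have k1 := prod_le (n := 0) (he t) zero_le_one le_rfl (B := B) (by simpa using ht)
    rw [one_pow, one_mul] at k1
    have k2 : ‖∏ s ∈ X.Z, (t - s)‖ ≤ (2 * ‖t‖) ^ X.Z.card := by
      rw [norm_prod, ← Finset.prod_const]
      exact Finset.prod_le_prod (fun _ _ => norm_nonneg _) fun s h =>
        (norm_sub_le _ _).trans (by linarith [hs s h])
    rw [norm_mul, norm_pow]
    refine (mul_le_mul (pow_le_pow_left₀ (norm_nonneg _) k2 _) k1 (norm_nonneg _)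
      (by positivity)).trans (le_of_eq ?_)
    rw [← pow_mul, mul_pow]
    ring

variable {X} {V : Type} [AddCommGroup V] [Module ℂ V] {n : ℕ} (D : SD X V n)

theorem eval_P (v : V) (x : S) (y : ℂ) :
    (D.P v x).eval y = y ^ n + ∑ k ∈ Finset.range n, D.c k v x * y ^ k := by
  simp [SD.P, mon, eval_finset_sum]

theorem growth (v : V) (y : ℂ) : ∃ B : ℝ,
    (∀ t₀ ∈ X.Z, ∀ᶠ t in 𝓝[≠] t₀, ∀ p ∈ X.fib t, ‖(D.P v p).eval y‖ * ‖t - t₀‖ ^ n ≤ B) ∧
    ∀ᶠ t in cobounded ℂ, ∀ p ∈ X.fib t, ‖(D.P v p).eval y‖ ≤ B := by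
  obtain ⟨κ, hκ, hg⟩ := D.gr
  choose! B hB using fun k hk => hg k hk v
  have key : ∀ (p : S) (r : ℝ), 0 ≤ r → r ≤ 1 → (∀ k < n, ‖D.c k v p‖ * r ≤ |B k|) →
      ‖(D.P v p).eval y‖ * r ≤ ‖y ^ n‖ + ∑ k ∈ Finset.range n, |B k| * ‖y ^ k‖ := by
    intro p r h0 h1 h
    rw [eval_P]
    refine (mul_le_mul_of_nonneg_right ((norm_add_le _ _).trans
      (add_le_add_right (norm_sum_le _ _) _)) h0).trans ?_
    rw [add_mul, Finset.sum_mul]
    refine add_le_add (mul_le_of_le_one_right (norm_nonneg _) h1)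
      (Finset.sum_le_sum fun k hk => ?_)
    rw [norm_mul, mul_right_comm]
    exact mul_le_mul_of_nonneg_right (h k (Finset.mem_range.1 hk)) (norm_nonneg _)
  refine ⟨‖y ^ n‖ + ∑ k ∈ Finset.range n, |B k| * ‖y ^ k‖, fun t₀ ht => ?_, ?_⟩
  · filter_upwards [(Finset.eventually_all (Finset.range n)).2 fun k hk =>
      (hB k (Finset.mem_range.1 hk)).1 t₀ ht, self_mem_nhdsWithin,
      nhdsWithin_le_nhds (Metric.closedBall_mem_nhds t₀ one_pos)] with t h1 h2 h3 p hp
    have r0 : 0 < ‖t - t₀‖ := norm_pos_iff.2 (sub_ne_zero.2 h2)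
    have r1 : ‖t - t₀‖ ≤ 1 := mem_closedBall_iff_norm.1 h3
    refine key p _ (by positivity) (pow_le_one₀ r0.le r1) fun k hk => ?_
    have k1 : (‖t - t₀‖ ^ (κ - 1)) ^ (n - k) * ‖t - t₀‖ ^ n ≤ 1 := by
      refine (mul_le_mul_of_nonneg_left (pow_le_pow_of_le_one r0.le r1 (Nat.sub_le n k))
        (by positivity)).trans ?_
      rw [← mul_pow, ← Real.rpow_add_one r0.ne', sub_add_cancel]
      exact pow_le_one₀ (by positivity) (Real.rpow_le_one r0.le r1 hκ.le)
    refine (mul_le_mul_of_nonneg_right ((h1 k (Finset.mem_range.2 hk) p hp).trans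
      (mul_le_mul_of_nonneg_right (le_abs_self _) (by positivity))) (by positivity)).trans ?_
    rw [mul_assoc]
    exact mul_le_of_le_one_right (abs_nonneg _) k1
  · filter_upwards [(Finset.eventually_all (Finset.range n)).2 fun k hk =>
      (hB k (Finset.mem_range.1 hk)).2, ev_ge 1] with t h1 h2 p hp
    rw [← mul_one ‖_‖]
    refine key p _ zero_le_one le_rfl fun k hk => ?_
    rw [mul_one]
    refine (h1 k (Finset.mem_range.2 hk) p hp).trans ((mul_le_mul_of_nonneg_right (le_abs_self _)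
      (by positivity)).trans (mul_le_of_le_one_right (abs_nonneg _) ?_))
    exact pow_le_one₀ (by positivity) (Real.rpow_le_one_of_one_le_of_nonpos h2 (by linarith))

theorem hl_P (v : V) (y : ℂ) : X.Hl fun p => (D.P v p).eval y := fun p => by
  simp only [eval_P]
  exact analyticAt_const.add (Finset.analyticAt_fun_sum _ fun k _ =>
    (D.hl k v p).mul analyticAt_const)

/-- a linear form as a polynomial function -/
def lin (Y : Set V) (φ : V →ₗ[ℂ] ℂ) : Pol Y := ⟨fun z => φ z, Algebra.subset_adjoin ⟨φ, rfl⟩⟩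

/-- the norm at a fixed point of the plane, with polynomial coefficients -/
def NmP (Y : Set V) (t : ℂ) : (Pol Y)[X] := ∏ x ∈ X.fib t, (Polynomial.X ^ n +
  ∑ k ∈ Finset.range n, C (lin Y ((LinearMap.proj x).comp (D.c k))) * Polynomial.X ^ k)

theorem NmP_map (Y : Set V) (t : ℂ) (a : Y) : (NmP D Y t).map (evP a) = D.Nm a t := by
  simp only [NmP, SD.Nm, SD.P, mon, Polynomial.map_prod, Polynomial.map_add, Polynomial.map_pow,
    map_X, Polynomial.map_sum, Polynomial.map_mul, map_C]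
  rfl

theorem poly : POLY := by
  intro S V X _ _ n D Y
  obtain ⟨e, he⟩ := X.bd
  obtain ⟨T, hT, hc⟩ := X.Z.finite_toSet.infinite_compl.exists_subset_card_eq
    (X.Z.card * (n * e + 1) + 1)
  refine ⟨n * e + 1, ∑ i ∈ T, C ((C ((∏ s ∈ X.Z, (i - s)) ^ (n * e + 1)) *
    Lagrange.basis T id i).map (algebraMap ℂ (Pol Y))) * (NmP D Y i).map C, fun a t _ => ?_⟩
  have e1 : (eval₂RingHom (evP a) t).comp C = evP a := RingHom.ext fun r => eval₂_C _ _
  have e2 : ∀ p : ℂ[X], eval₂RingHom (evP a) t (p.map (algebraMap ℂ (Pol Y))) = p.eval t :=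
    fun p => by
      rw [coe_eval₂RingHom, eval₂_map, show (evP a).comp (algebraMap ℂ (Pol Y)) = RingHom.id ℂ from
        RingHom.ext fun _ => rfl, eval₂_id]
  simp only [Polynomial.map_sum, Polynomial.map_mul (f := eval₂RingHom (evP a) t), map_C, e2,
    Polynomial.map_map, e1, NmP_map]
  refine Polynomial.funext fun y => ?_
  obtain ⟨B, h1, h2⟩ := growth D a y
  obtain ⟨Q, hQ, hQ'⟩ := norm_poly X (hl_P D a y) he h1 h2
  have e3 := Lagrange.eq_interpolate (s := T) (v := id) (f := Q) (injOn_id _)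
    (degree_le_natDegree.trans_lt (by rw [hc]; exact_mod_cast Nat.lt_succ_of_le hQ))
  simp only [eval_finset_sum, eval_mul, eval_C, SD.Nm, eval_prod]
  rw [hQ' t, e3, Lagrange.interpolate_apply, eval_finset_sum]
  refine Finset.sum_congr rfl fun i _ => ?_
  rw [eval_mul, eval_C, id, ← hQ' i]
  ring

end Vale.Agent.P275GE
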